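import Vale.Agent.P168.Upper
import Vale.Agent.P168.Bdd

open MeasureTheory Filter Topology Vale.Agent.P168

namespace Vale.Agent.Results.P168.A_full

theorem result (K : ℕ) (hK : 2 ≤ K) (lam : ℝ) (hlam : 0 < lam)
    (Q : Measure (ℝ × ℝ × (Fin K → Bool → ℝ))) (Ph : Measure ℝ) (hM : Model K Q Ph) :
    ∃ L : ℝ, IsGLB (trials K lam Q Ph) L ∧
      (Even K → Positive K Q → Tendsto (pressure K lam Q Ph) atTop (𝓝 L)) ∧
      ∀ ε > 0, ∀ᶠ N in atTop, L - ε ≤ pressure K lam Q Ph N := by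
  have hK1 : 1 ≤ K := by omega
  have hglb := trials_glb hK1 hM hlam.le
  refine ⟨_, hglb, fun he hP => tendsto_order.2 ⟨fun a ha => ?_, fun a ha => ?_⟩,
    fun ε hε => lower hK1 hM hlam.le hglb.1 hε⟩
  · have hε : 0 < (sInf (trials K lam Q Ph) - a) / 2 := by linarith
    filter_upwards [lower hK1 hM hlam.le hglb.1 hε] with N hN
    linarith
  · filter_upwards [eventually_ge_atTop 1] with N hN
    exact lt_of_le_of_lt (hglb.2 fun v hv => upper hK1 he hN hM hP hlam.le hv) ha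

end Vale.Agent.Results.P168.A_full
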