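import Vale.Agent.P168.Bdd

open MeasureTheory Filter Topology Vale.Agent.P168

namespace Vale.Agent.Results.P168.B_lower

theorem result (K : ℕ) (hK : 2 ≤ K) (lam : ℝ) (hlam : 0 < lam)
    (Q : Measure (ℝ × ℝ × (Fin K → Bool → ℝ))) (Ph : Measure ℝ) (hM : Model K Q Ph) :
    ∃ L : ℝ, IsGLB (trials K lam Q Ph) L ∧
      ∀ ε > 0, ∀ᶠ N in atTop, L - ε ≤ pressure K lam Q Ph N :=
  ⟨_, trials_glb (by omega) hM hlam.le, fun _ hε =>
    lower (by omega) hM hlam.le (trials_glb (by omega) hM hlam.le).1 hε⟩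

end Vale.Agent.Results.P168.B_lower
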